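import Vale.Agent.P141.PL.H855.StepDefs

/-!
# P141, line W, module REC (R4): the model on the nodes, in the format `NV`, any order of slots

`nvT`: the value of the node `N` is `wN o (fun j => ![a, b, c, d] (σ j)) N`.
-/

namespace Vale.Agent.P141.H330

open Finset Function
open Vale.Agent.P141.PL.H571 (W)
open Vale.Agent.P141.PL.H95 (gr)
open Vale.Agent.P141.PL.H855
open Vale.Agent.P141.H315
open Vale.Agent.P141.H8

noncomputable section

open scoped Classical

variable {s o : ℤ} {nd : Finset (ℕ × ℤ)} {le : ℕ × ℤ → ℤ}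

/-- the node values of the model, slots in the order `σ` -/
def nvT (s : ℤ) (ho : o = 1 ∨ o = -1) (nd : Finset (ℕ × ℤ)) (le : ℕ × ℤ → ℤ)
    (σ : Equiv.Perm (Fin 4)) (hsub : ∀ N ∈ nd, W N.1 N.2 ⊆ (gr 7 s).cube N.1 (le N)) :
    NV (gr 7 s) (ℕ × ℤ) := (n4T s ho nd le hsub).toNV σ

variable (ho : o = 1 ∨ o = -1) (σ : Equiv.Perm (Fin 4))
  (hsub : ∀ N ∈ nd, W N.1 N.2 ⊆ (gr 7 s).cube N.1 (le N))

@[simp] theorem nvT_nd : (nvT s ho nd le σ hsub).nd = nd := rfl

@[simp] theorem nvT_sc (N : ℕ × ℤ) : (nvT s ho nd le σ hsub).sc N = N.1 := rfl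

@[simp] theorem nvT_pt (N : ℕ × ℤ) : (nvT s ho nd le σ hsub).pt N = le N := rfl

theorem nvT_v {N : ℕ × ℤ} (hN : N ∈ nd) (a b c d : ℤ → ℝ) :
    (nvT s ho nd le σ hsub).v N a b c d = wN o (fun j => ![a, b, c, d] (σ j)) N := by
  show (if N ∈ nd then wN o (fun j => ![a, b, c, d] (σ j)) N else 0) = _
  rw [if_pos hN]

/-- **(R4)** the totals of the format `NV` are the totals `TT` of the nodes of the region -/
theorem T4_nvT (ud : ℕ → ℤ → Prop) (A B C D : ℕ → ℤ → ℝ) :
    T4 (nvT s ho nd le σ hsub) ud A B C D =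
      TT o (nd.filter fun N => ud N.1 (le N)) (fun j N => ![A, B, C, D] (σ j) N.1) := by
  rw [nvT, T4_toNV, TR_n4T]

/-- the totals in the order `σ` of four families, from the families themselves -/
theorem TR_eq_T4_nvT (ud : ℕ → ℤ → Prop) (A : Fin 4 → ℕ → ℤ → ℝ) :
    TR (n4T s ho nd le hsub) ud A =
      T4 (nvT s ho nd le σ hsub) ud (A (σ.symm 0)) (A (σ.symm 1)) (A (σ.symm 2))
        (A (σ.symm 3)) := by
  rw [nvT, T4_toNV]
  congr 1
  funext j
  have key : ∀ m : Fin 4, A (σ.symm m) =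
      ![A (σ.symm 0), A (σ.symm 1), A (σ.symm 2), A (σ.symm 3)] m := by
    intro m
    fin_cases m <;> rfl
  rw [← key, Equiv.symm_apply_apply]

end

end Vale.Agent.P141.H330
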